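import Mathlib
import Vale.Agent.P113.Defs

/-!
Superpositions of shears with pairwise disjoint supports in time: the velocity is smooth,
divergence free, the convection term vanishes, and the force which drives it with pressure `0` is
explicit.
-/

open Set Function
open scoped ContDiff

namespace Vale.Agent.P113.H165

theorem hasDerivAt_slice {g : (Fin 3 → ℝ) → ℝ} {n : WithTop ℕ∞} (hg : ContDiff ℝ n g) (hn : n ≠ 0)
    (k : Fin 3) (x : Fin 3 → ℝ) :
    HasDerivAt (fun s => g (update x k s)) (fderiv ℝ g x (Pi.single k 1)) (x k) := by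
  have h1 : HasDerivAt (update x k) (Pi.single k (1 : ℝ)) (x k) := hasDerivAt_update x k (x k)
  have h2 : HasFDerivAt g (fderiv ℝ g x) (update x k (x k)) := by
    rw [update_eq_self]
    exact (hg.differentiable hn x).hasFDerivAt
  exact h2.comp_hasDerivAt (x k) h1

theorem pd_eq_fderiv {g : (Fin 3 → ℝ) → ℝ} {n : WithTop ℕ∞} (hg : ContDiff ℝ n g) (hn : n ≠ 0)
    (k : Fin 3) (x : Fin 3 → ℝ) : pd k g x = fderiv ℝ g x (Pi.single k 1) :=
  (hasDerivAt_slice hg hn k x).deriv

theorem hasDerivAt_pd {g : (Fin 3 → ℝ) → ℝ} {n : WithTop ℕ∞} (hg : ContDiff ℝ n g) (hn : n ≠ 0)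
    (k : Fin 3) (x : Fin 3 → ℝ) :
    HasDerivAt (fun s => g (update x k s)) (pd k g x) (x k) := by
  rw [pd_eq_fderiv hg hn]
  exact hasDerivAt_slice hg hn k x

theorem contDiff_pd {g : (Fin 3 → ℝ) → ℝ} (hg : ContDiff ℝ ∞ g) (k : Fin 3) :
    ContDiff ℝ ∞ (pd k g) := by
  have h : pd k g = fun x => fderiv ℝ g x (Pi.single k 1) :=
    funext fun x => pd_eq_fderiv hg (by simp) k x
  rw [h]
  have h2 : ContDiff ℝ ∞ (fderiv ℝ g) := by
    apply hg.fderiv_right
    simp
  exact h2.clm_apply contDiff_const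

/-- Data of a superposition of shears. -/
structure Shears (ι : Type) where
  /-- direction -/
  d : ι → Fin 3
  /-- time factor -/
  θ : ι → ℝ → ℝ
  /-- profile -/
  V : ι → (Fin 3 → ℝ) → ℝ

namespace Shears

variable {ι : Type} (S : Shears ι)

/-- Conditions: smooth, periodic profiles which do not depend on the coordinate of the direction of
the shear, and times factors no two of which are ever nonzero together. -/
structure Ok : Prop where
  smoothT : ∀ m, ContDiff ℝ ∞ (S.θ m)
  smoothV : ∀ m, ContDiff ℝ ∞ (S.V m)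
  indep : ∀ m x s, S.V m (update x (S.d m) s) = S.V m x
  per : ∀ m x i, S.V m (x + Pi.single i 1) = S.V m x
  disj : ∀ m m' t, m ≠ m' → S.θ m t * S.θ m' t = 0

/-- the velocity -/
noncomputable def u [Fintype ι] (t : ℝ) (x : Fin 3 → ℝ) (i : Fin 3) : ℝ :=
  ∑ m, if S.d m = i then S.θ m t * S.V m x else 0

/-- the Laplacian of the profile -/
noncomputable def lap (m : ι) (x : Fin 3 → ℝ) : ℝ := ∑ j, pd j (pd j (S.V m)) x

/-- the force -/
noncomputable def f [Fintype ι] (ν : ℝ) (t : ℝ) (x : Fin 3 → ℝ) (i : Fin 3) : ℝ :=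
  ∑ m, if S.d m = i then deriv (S.θ m) t * S.V m x - ν * (S.θ m t * S.lap m x) else 0

variable {S}

theorem contDiff_lap (h : S.Ok) (m : ι) : ContDiff ℝ ∞ (S.lap m) := by
  unfold lap
  apply ContDiff.sum
  intro j _
  exact contDiff_pd (contDiff_pd (h.smoothV m) j) j

/-- The derivative of the profile in the direction of the shear vanishes. -/
theorem pd_V (h : S.Ok) (m : ι) (x : Fin 3 → ℝ) : pd (S.d m) (S.V m) x = 0 := by
  unfold pd
  simp only [h.indep]
  exact deriv_const _ _

variable [Fintype ι]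

theorem contDiff_u (h : S.Ok) (i : Fin 3) :
    ContDiff ℝ ∞ (fun z : ℝ × (Fin 3 → ℝ) => S.u z.1 z.2 i) := by
  unfold u
  apply ContDiff.sum
  intro m _
  split_ifs
  · exact ((h.smoothT m).comp contDiff_fst).mul ((h.smoothV m).comp contDiff_snd)
  · exact contDiff_const

theorem contDiff_u' (h : S.Ok) : ContDiff ℝ ∞ (fun z : ℝ × (Fin 3 → ℝ) => S.u z.1 z.2) :=
  contDiff_pi.2 fun i => contDiff_u h i

theorem contDiff_f (h : S.Ok) (ν : ℝ) (i : Fin 3) :
    ContDiff ℝ ∞ (fun z : ℝ × (Fin 3 → ℝ) => S.f ν z.1 z.2 i) := by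
  unfold f
  apply ContDiff.sum
  intro m _
  split_ifs
  · have h1 : ContDiff ℝ ∞ (deriv (S.θ m)) := (contDiff_infty_iff_deriv.1 (h.smoothT m)).2
    have h2 := (h1.comp contDiff_fst).mul ((h.smoothV m).comp (contDiff_snd (E := ℝ)))
    have h3 := ((h.smoothT m).comp contDiff_fst).mul ((contDiff_lap h m).comp
      (contDiff_snd (E := ℝ)))
    exact h2.sub (contDiff_const.mul h3)
  · exact contDiff_const

theorem u_periodic (h : S.Ok) (t : ℝ) (x : Fin 3 → ℝ) (i j : Fin 3) :
    S.u t (x + Pi.single j 1) i = S.u t x i := by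
  simp only [u, h.per]

theorem hasDerivAt_time (h : S.Ok) (t : ℝ) (x : Fin 3 → ℝ) (i : Fin 3) :
    HasDerivAt (fun r => S.u r x i)
      (∑ m, if S.d m = i then deriv (S.θ m) t * S.V m x else 0) t := by
  unfold u
  apply HasDerivAt.fun_sum
  intro m _
  split_ifs
  · exact (((h.smoothT m).differentiable (by simp) t).hasDerivAt).mul_const _
  · exact hasDerivAt_const _ _

theorem hasDerivAt_space (h : S.Ok) (t : ℝ) (x : Fin 3 → ℝ) (i j : Fin 3) :
    HasDerivAt (fun s => S.u t (update x j s) i)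
      (∑ m, if S.d m = i then S.θ m t * pd j (S.V m) x else 0) (x j) := by
  unfold u
  apply HasDerivAt.fun_sum
  intro m _
  split_ifs
  · exact (hasDerivAt_pd (h.smoothV m) (by simp) j x).const_mul _
  · exact hasDerivAt_const _ _

theorem pd_u (h : S.Ok) (t : ℝ) (x : Fin 3 → ℝ) (i j : Fin 3) :
    pd j (fun y => S.u t y i) x = ∑ m, if S.d m = i then S.θ m t * pd j (S.V m) x else 0 :=
  (hasDerivAt_space h t x i j).deriv

theorem hasDerivAt_space2 (h : S.Ok) (t : ℝ) (x : Fin 3 → ℝ) (i j k : Fin 3) :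
    HasDerivAt (fun s => pd j (fun y => S.u t y i) (update x k s))
      (∑ m, if S.d m = i then S.θ m t * pd k (pd j (S.V m)) x else 0) (x k) := by
  simp only [pd_u h]
  apply HasDerivAt.fun_sum
  intro m _
  split_ifs
  · exact (hasDerivAt_pd (contDiff_pd (h.smoothV m) j) (by simp) k x).const_mul _
  · exact hasDerivAt_const _ _

theorem pd_pd_u (h : S.Ok) (t : ℝ) (x : Fin 3 → ℝ) (i j k : Fin 3) :
    pd k (pd j (fun y => S.u t y i)) x =
      ∑ m, if S.d m = i then S.θ m t * pd k (pd j (S.V m)) x else 0 :=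
  (hasDerivAt_space2 h t x i j k).deriv

theorem div_u (h : S.Ok) (t : ℝ) (x : Fin 3 → ℝ) : ∑ i, pd i (fun y => S.u t y i) x = 0 := by
  simp only [pd_u h]
  rw [Finset.sum_comm]
  apply Finset.sum_eq_zero
  intro m _
  rw [Finset.sum_ite_eq]
  simp [pd_V h]

theorem conv_u (h : S.Ok) (t : ℝ) (x : Fin 3 → ℝ) (i : Fin 3) :
    ∑ j, S.u t x j * pd j (fun y => S.u t y i) x = 0 := by
  simp only [pd_u h]
  simp only [u, Finset.sum_mul_sum]
  apply Finset.sum_eq_zero
  intro j _
  apply Finset.sum_eq_zero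
  intro m _
  apply Finset.sum_eq_zero
  intro m' _
  by_cases h1 : S.d m = j
  · by_cases h2 : S.d m' = i
    · rw [if_pos h1, if_pos h2]
      by_cases hm : m = m'
      · subst hm
        rw [← h1, pd_V h]
        ring
      · have := h.disj m m' t hm
        calc S.θ m t * S.V m x * (S.θ m' t * pd j (S.V m') x)
            = (S.θ m t * S.θ m' t) * (S.V m x * pd j (S.V m') x) := by ring
          _ = 0 := by rw [this, zero_mul]
    · rw [if_neg h2, mul_zero]
  · rw [if_neg h1, zero_mul]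

theorem lap_u (h : S.Ok) (t : ℝ) (x : Fin 3 → ℝ) (i : Fin 3) :
    ∑ j, pd j (pd j (fun y => S.u t y i)) x =
      ∑ m, if S.d m = i then S.θ m t * S.lap m x else 0 := by
  simp only [pd_pd_u h]
  rw [Finset.sum_comm]
  apply Finset.sum_congr rfl
  intro m _
  by_cases hm : S.d m = i
  · simp only [hm, if_true, lap, Finset.mul_sum]
  · simp [hm]

/-- The Navier-Stokes equation with pressure zero. -/
theorem navier_stokes (h : S.Ok) (ν : ℝ) (t : ℝ) (x : Fin 3 → ℝ) (i : Fin 3) :
    deriv (fun r => S.u r x i) t + ∑ j, S.u t x j * pd j (fun y => S.u t y i) x =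
      ν * ∑ j, pd j (pd j (fun y => S.u t y i)) x + S.f ν t x i := by
  rw [conv_u h, lap_u h, (hasDerivAt_time h t x i).deriv, add_zero, f, Finset.mul_sum,
    ← Finset.sum_add_distrib]
  apply Finset.sum_congr rfl
  intro m _
  split_ifs <;> ring

end Shears

end Vale.Agent.P113.H165
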