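import Mathlib
import Vale.Agent.P113.Defs
import Vale.Agent.P113.H165.Shear

/-!
A superposition of shears with pairwise disjoint supports in time is a global smooth solution of
the forced Navier-Stokes system.
-/

open Set Function
open scoped ContDiff

namespace Vale.Agent.P113.H165

theorem periodic_int {g : (Fin 3 → ℝ) → ℝ} (hg : ∀ x i, g (x + Pi.single i 1) = g x)
    (x : Fin 3 → ℝ) (k : Fin 3 → ℤ) : g (x + fun i => (k i : ℝ)) = g x := by
  have h1 : ∀ i, Function.Periodic g (Pi.single i (1 : ℝ)) := fun i x => hg x i
  have h2 : ∀ i (n : ℤ) x, g (x + n • Pi.single i (1 : ℝ)) = g x := fun i n x => (h1 i).zsmul n x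
  have h3 : (x + fun i => (k i : ℝ)) = ((x + k 0 • Pi.single (0 : Fin 3) (1 : ℝ)) +
      k 1 • Pi.single (1 : Fin 3) (1 : ℝ)) + k 2 • Pi.single (2 : Fin 3) (1 : ℝ) := by
    ext i
    fin_cases i <;> simp
  rw [h3, h2, h2, h2]

namespace Shears

variable {ι : Type} [Fintype ι] {S : Shears ι}

/-- The velocity of the shears solves the system on every time interval `I`, with pressure `0`. -/
theorem classical (h : S.Ok) (h0 : ∀ m, S.θ m 0 = 0) {ν : ℝ} {f : ℝ → E → E} {I : Set ℝ}
    (hI : UniqueDiffOn ℝ I) (hf : ∀ t ∈ I, ∀ x i, f t x i = S.f ν t x i) :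
    IsClassicalSolution ν f I S.u (fun _ _ => 0) := by
  have hut : ∀ t ∈ I, ∀ x i, derivWithin (fun s => S.u s x i) I t =
      ∑ m, if S.d m = i then deriv (S.θ m) t * S.V m x else 0 := by
    intro t ht x i
    exact (hasDerivAt_time h t x i).hasDerivWithinAt.derivWithin (hI t ht)
  have hp : ∀ j (x : E), pd j (fun _ : E => (0 : ℝ)) x = 0 := by
    intro j x
    unfold pd
    exact deriv_const _ _
  refine
    { u_periodic := ?_, p_periodic := ?_, u_cont := ?_, ut_diff := ?_, ut_cont := ?_,
      ux_diff := ?_, ux_cont := ?_, uxx_diff := ?_, uxx_cont := ?_, p_cont := ?_, px_diff := ?_,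
      px_cont := ?_, mean_zero := ?_, momentum := ?_, div_free := ?_, initial := ?_ }
  · intro t _ x k
    ext i
    exact periodic_int (g := fun x => S.u t x i) (fun x j => u_periodic h t x i j) x k
  · intro t _ x k; rfl
  · exact (contDiff_u' h).continuous.continuousOn
  · intro t _ x i
    exact (hasDerivAt_time h t x i).differentiableAt.differentiableWithinAt
  · intro i
    have hc : Continuous (fun z : ℝ × E =>
        ∑ m, if S.d m = i then deriv (S.θ m) z.1 * S.V m z.2 else 0) := by
      apply continuous_finsetSum
      intro m _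
      split_ifs
      · have h1 : ContDiff ℝ ∞ (deriv (S.θ m)) := (contDiff_infty_iff_deriv.1 (h.smoothT m)).2
        exact (h1.continuous.comp continuous_fst).mul ((h.smoothV m).continuous.comp continuous_snd)
      · exact continuous_const
    refine hc.continuousOn.congr ?_
    rintro ⟨t, x⟩ ⟨ht, _⟩
    exact hut t ht x i
  · intro t _ i j x
    exact (hasDerivAt_space h t x i j).differentiableAt
  · intro i j
    simp only [pd_u h]
    apply Continuous.continuousOn
    apply continuous_finsetSum
    intro m _
    split_ifs
    · exact ((h.smoothT m).continuous.comp continuous_fst).mul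
        ((contDiff_pd (h.smoothV m) j).continuous.comp continuous_snd)
    · exact continuous_const
  · intro t _ i j k x
    exact (hasDerivAt_space2 h t x i j k).differentiableAt
  · intro i j k
    simp only [pd_pd_u h]
    apply Continuous.continuousOn
    apply continuous_finsetSum
    intro m _
    split_ifs
    · exact ((h.smoothT m).continuous.comp continuous_fst).mul
        ((contDiff_pd (contDiff_pd (h.smoothV m) j) k).continuous.comp continuous_snd)
    · exact continuous_const
  · exact continuousOn_const
  · intro t _ j x
    exact differentiableAt_const _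
  · intro j
    simp only [hp]
    exact continuousOn_const
  · intro t _
    simp
  · intro t ht x i
    have h1 := navier_stokes h ν t x i
    rw [hut t ht x i, hp, hf t ht x i]
    rw [(hasDerivAt_time h t x i).deriv] at h1
    rw [h1]
    ring
  · intro t _ x
    exact div_u h t x
  · intro x
    ext i
    simp [u, h0]

/-- The velocity of the shears is a global smooth solution, with pressure `0`. -/
theorem global (h : S.Ok) (h0 : ∀ m, S.θ m 0 = 0) {ν : ℝ} {f : ℝ → E → E}
    (hf : ∀ t, 0 ≤ t → ∀ x i, f t x i = S.f ν t x i) :
    IsGlobalSmoothSolution ν f S.u (fun _ _ => 0) where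
  u_smooth := (contDiff_u' h).contDiffOn
  p_smooth := contDiffOn_const
  solution := classical h h0 (uniqueDiffOn_Ici 0) hf

end Shears

end Vale.Agent.P113.H165
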