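import Mathlib

/-!
Trajectories of a slotted shear flow. Time is cut into slots `[n/N, (n+1)/N]`; in slot `n` the
velocity is `ψ n t * W n x` in the direction `d n`, where `W n` does not depend on the coordinate
`d n`. Then the trajectory of a point moves along one segment per slot.
-/

open Set Function

namespace Vale.Agent.P113.H165

/-- Slotted shear data. -/
structure Slots where
  /-- direction of slot `n` -/
  d : ℕ → Fin 3
  /-- profile of slot `n` -/
  W : ℕ → (Fin 3 → ℝ) → ℝ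
  /-- progress of slot `n`, from `0` to `1` -/
  φ : ℕ → ℝ → ℝ
  /-- speed of slot `n`, the derivative of `φ n` -/
  ψ : ℕ → ℝ → ℝ

namespace Slots

variable (S : Slots)

/-- the point reached from `x` in slot `n` with progress `s` -/
def seg (n : ℕ) (x : Fin 3 → ℝ) (s : ℝ) : Fin 3 → ℝ :=
  update x (S.d n) (x (S.d n) + s * S.W n x)

/-- the position at time `n/N` of the trajectory of `a` -/
def pos (a : Fin 3 → ℝ) : ℕ → Fin 3 → ℝ
  | 0 => a
  | n + 1 => S.seg n (pos a n) 1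

/-- Conditions on the data of a slotted shear flow `u` with `N` slots per unit of time. -/
structure Ok (N : ℕ) (u : ℝ → (Fin 3 → ℝ) → Fin 3 → ℝ) : Prop where
  pos : 0 < N
  indep : ∀ n x s, S.W n (update x (S.d n) s) = S.W n x
  der : ∀ n t, HasDerivAt (S.φ n) (S.ψ n t) t
  zero : ∀ n : ℕ, S.φ n ((n : ℝ) / N) = 0
  one : ∀ n : ℕ, S.φ n (((n : ℝ) + 1) / N) = 1
  mem : ∀ n : ℕ, ∀ t ∈ Icc ((n : ℝ) / N) (((n : ℝ) + 1) / N), S.φ n t ∈ Icc (0 : ℝ) 1
  eq : ∀ n : ℕ, ∀ t ∈ Icc ((n : ℝ) / N) (((n : ℝ) + 1) / N), ∀ x,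
    u t x = Pi.single (S.d n) (S.ψ n t * S.W n x)

variable {S}

/-- the closed form of the trajectory -/
noncomputable def traj (S : Slots) (N : ℕ) (a : Fin 3 → ℝ) (t : ℝ) : Fin 3 → ℝ :=
  S.seg ⌊(N : ℝ) * t⌋₊ (S.pos a ⌊(N : ℝ) * t⌋₊) (S.φ ⌊(N : ℝ) * t⌋₊ t)

variable {N : ℕ} {u : ℝ → (Fin 3 → ℝ) → Fin 3 → ℝ}

theorem seg_zero (n : ℕ) (x : Fin 3 → ℝ) : S.seg n x 0 = x := by
  simp [seg]

theorem seg_apply_ne {n : ℕ} {x : Fin 3 → ℝ} {s : ℝ} {i : Fin 3} (h : i ≠ S.d n) :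
    S.seg n x s i = x i := by
  simp [seg, h]

theorem seg_apply_self (n : ℕ) (x : Fin 3 → ℝ) (s : ℝ) :
    S.seg n x s (S.d n) = x (S.d n) + s * S.W n x := by
  simp [seg]

theorem W_seg (h : S.Ok N u) (n : ℕ) (x : Fin 3 → ℝ) (s : ℝ) : S.W n (S.seg n x s) = S.W n x :=
  h.indep n x _

theorem traj_zero (h : S.Ok N u) (a : Fin 3 → ℝ) : traj S N a 0 = a := by
  have h0 := h.zero 0
  simp only [Nat.cast_zero, zero_div] at h0
  simp [traj, h0, seg_zero, Slots.pos]

/-- On the closed slot `n` the trajectory is given by the formula of slot `n`. -/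
theorem traj_eq (h : S.Ok N u) (a : Fin 3 → ℝ) (n : ℕ) {t : ℝ}
    (ht : t ∈ Icc ((n : ℝ) / N) (((n : ℝ) + 1) / N)) :
    traj S N a t = S.seg n (S.pos a n) (S.φ n t) := by
  have hN : (0 : ℝ) < N := by exact_mod_cast h.pos
  have h1 : (n : ℝ) ≤ N * t := by
    have := ht.1
    rw [div_le_iff₀ hN] at this
    linarith
  have h2 : N * t ≤ (n : ℝ) + 1 := by
    have := ht.2
    rw [le_div_iff₀ hN] at this
    linarith
  rcases lt_or_eq_of_le h2 with h3 | h3
  · have : ⌊(N : ℝ) * t⌋₊ = n := by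
      rw [Nat.floor_eq_iff (le_trans (Nat.cast_nonneg n) h1)]
      exact ⟨h1, h3⟩
    rw [traj, this]
  · have : ⌊(N : ℝ) * t⌋₊ = n + 1 := by
      rw [h3]
      exact_mod_cast Nat.floor_natCast (n + 1)
    have ht' : t = ((n : ℝ) + 1) / N := by
      rw [eq_div_iff hN.ne']
      linarith
    rw [traj, this, ht', h.one n]
    have := h.zero (n + 1)
    push_cast at this
    rw [this, seg_zero]
    rfl

theorem hasDerivAt_seg (h : S.Ok N u) (n : ℕ) (x : Fin 3 → ℝ) (t : ℝ) :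
    HasDerivAt (fun r => S.seg n x (S.φ n r)) (Pi.single (S.d n) (S.ψ n t * S.W n x)) t := by
  rw [hasDerivAt_pi]
  intro i
  by_cases hi : i = S.d n
  · subst hi
    simp only [seg_apply_self, Pi.single_eq_same]
    exact ((h.der n t).mul_const _).const_add _
  · simp only [seg_apply_ne hi, Pi.single_eq_of_ne hi]
    exact hasDerivAt_const _ _

theorem exists_slot (hN : 0 < N) {t : ℝ} (ht : 0 ≤ t) :
    ∃ n : ℕ, (n : ℝ) / N ≤ t ∧ t < ((n : ℝ) + 1) / N := by
  have hN' : (0 : ℝ) < N := by exact_mod_cast hN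
  refine ⟨⌊(N : ℝ) * t⌋₊, ?_, ?_⟩
  · rw [div_le_iff₀ hN']
    have := Nat.floor_le (mul_nonneg hN'.le ht)
    linarith
  · rw [lt_div_iff₀ hN']
    have := Nat.lt_floor_add_one ((N : ℝ) * t)
    linarith

theorem exists_slot_left (hN : 0 < N) {t : ℝ} (ht : 0 < t) :
    ∃ n : ℕ, (n : ℝ) / N < t ∧ t ≤ ((n : ℝ) + 1) / N := by
  have hN' : (0 : ℝ) < N := by exact_mod_cast hN
  have hc : 0 < ⌈(N : ℝ) * t⌉₊ := Nat.ceil_pos.2 (mul_pos hN' ht)
  refine ⟨⌈(N : ℝ) * t⌉₊ - 1, ?_, ?_⟩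
  · rw [div_lt_iff₀ hN']
    have := Nat.ceil_lt_add_one (mul_pos hN' ht).le
    have h2 : ((⌈(N : ℝ) * t⌉₊ - 1 : ℕ) : ℝ) = (⌈(N : ℝ) * t⌉₊ : ℝ) - 1 := by
      rw [Nat.cast_sub hc]; simp
    rw [h2]
    linarith
  · rw [le_div_iff₀ hN']
    have := Nat.le_ceil ((N : ℝ) * t)
    have h2 : ((⌈(N : ℝ) * t⌉₊ - 1 : ℕ) : ℝ) = (⌈(N : ℝ) * t⌉₊ : ℝ) - 1 := by
      rw [Nat.cast_sub hc]; simp
    rw [h2]
    linarith

/-- The closed form solves the equation of trajectories. -/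
theorem traj_hasDeriv (h : S.Ok N u) (a : Fin 3 → ℝ) {t : ℝ} (ht : 0 ≤ t) :
    HasDerivWithinAt (traj S N a) (u t (traj S N a t)) (Ici 0) t := by
  have hN : (0 : ℝ) < N := by exact_mod_cast h.pos
  -- derivative within a closed slot
  have key : ∀ n : ℕ, t ∈ Icc ((n : ℝ) / N) (((n : ℝ) + 1) / N) →
      HasDerivWithinAt (traj S N a) (u t (traj S N a t))
        (Icc ((n : ℝ) / N) (((n : ℝ) + 1) / N)) t := by
    intro n hn
    have h1 := (hasDerivAt_seg h n (S.pos a n) t).hasDerivWithinAt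
      (s := Icc ((n : ℝ) / N) (((n : ℝ) + 1) / N))
    have h2 : u t (traj S N a t) = Pi.single (S.d n) (S.ψ n t * S.W n (S.pos a n)) := by
      rw [h.eq n t hn, traj_eq h a n hn, W_seg h]
    rw [h2]
    exact h1.congr (fun r hr => traj_eq h a n hr) (traj_eq h a n hn)
  obtain ⟨n, hn1, hn2⟩ := exists_slot h.pos ht
  have hR := key n ⟨hn1, hn2.le⟩
  rcases eq_or_lt_of_le ht with h0 | h0
  · -- t = 0
    refine (hR.mono_of_mem_nhdsWithin ?_)
    have hn0 : (n : ℝ) / N = 0 := le_antisymm (by rw [h0]; exact hn1) (by positivity)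
    rw [← h0] at hn2 ⊢
    rw [hn0]
    exact Icc_mem_nhdsGE hn2
  · obtain ⟨m, hm1, hm2⟩ := exists_slot_left h.pos h0
    have hL := key m ⟨hm1.le, hm2⟩
    have hU := hL.union hR
    apply HasDerivAt.hasDerivWithinAt
    refine hU.hasDerivAt ?_
    have e1 : Icc ((m : ℝ) / N) (((m : ℝ) + 1) / N) ∈ nhdsWithin t (Iic t) := by
      apply Filter.mem_of_superset (Icc_mem_nhdsLE hm1)
      exact Icc_subset_Icc_right hm2
    have e2 : Icc ((n : ℝ) / N) (((n : ℝ) + 1) / N) ∈ nhdsWithin t (Ici t) := by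
      apply Filter.mem_of_superset (Icc_mem_nhdsGE hn2)
      exact Icc_subset_Icc_left hn1
    rw [← nhdsLE_sup_nhdsGE]
    exact ⟨Filter.mem_of_superset e1 subset_union_left,
      Filter.mem_of_superset e2 subset_union_right⟩

/-- A solution of the trajectory equation which is at `S.pos a n` at time `n/N` follows the closed
form in slot `n`. -/
theorem slot_unique (h : S.Ok N u) {X : ℝ → Fin 3 → ℝ}
    (hX : ∀ t, 0 ≤ t → HasDerivWithinAt X (u t (X t)) (Ici 0) t) (n : ℕ) {y : Fin 3 → ℝ}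
    (hy : X ((n : ℝ) / N) = y) {t : ℝ} (ht : t ∈ Icc ((n : ℝ) / N) (((n : ℝ) + 1) / N)) :
    X t = S.seg n y (S.φ n t) := by
  have hN : (0 : ℝ) < N := by exact_mod_cast h.pos
  set α : ℝ := (n : ℝ) / N with hα
  set β : ℝ := ((n : ℝ) + 1) / N with hβ
  have hα0 : 0 ≤ α := by positivity
  have hcomp : ∀ i, ∀ r, 0 ≤ r → HasDerivWithinAt (fun r => X r i) (u r (X r) i) (Ici 0) r := by
    intro i r hr
    exact (hasDerivWithinAt_pi.1 (hX r hr)) i
  have hcont : ∀ i, ContinuousOn (fun r => X r i) (Icc α β) := by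
    intro i r hr
    exact ((hcomp i r (hα0.trans hr.1)).continuousWithinAt).mono
      (fun s hs => (hα0.trans hs.1 : (0:ℝ) ≤ s))
  -- coordinates other than `d n` are constant
  have hne : ∀ i, i ≠ S.d n → ∀ r ∈ Icc α β, X r i = y i := by
    intro i hi r hr
    have hder : ∀ s ∈ Ico α β, HasDerivWithinAt (fun r => X r i) 0 (Ici s) s := by
      intro s hs
      have hs0 : 0 ≤ s := hα0.trans hs.1
      have h1 := (hcomp i s hs0).mono (Ici_subset_Ici.2 hs0)
      rw [h.eq n s ⟨hs.1, hs.2.le⟩, Pi.single_eq_of_ne hi] at h1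
      exact h1
    have := constant_of_has_deriv_right_zero (hcont i) hder r hr
    rw [this, hy]
  have hW : ∀ r ∈ Icc α β, S.W n (X r) = S.W n y := by
    intro r hr
    have : X r = update y (S.d n) (X r (S.d n)) := by
      ext i
      by_cases hi : i = S.d n
      · subst hi; simp
      · rw [update_of_ne hi, hne i hi r hr]
    rw [this, h.indep]
  have hd : X t (S.d n) = y (S.d n) + S.φ n t * S.W n y := by
    have hder : ∀ s ∈ Ico α β,
        HasDerivWithinAt (fun r => X r (S.d n) - S.φ n r * S.W n y) 0 (Ici s) s := by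
      intro s hs
      have hs0 : 0 ≤ s := hα0.trans hs.1
      have h1 := (hcomp (S.d n) s hs0).mono (Ici_subset_Ici.2 hs0)
      rw [h.eq n s ⟨hs.1, hs.2.le⟩, Pi.single_eq_same, hW s ⟨hs.1, hs.2.le⟩] at h1
      have h2 := ((h.der n s).mul_const (S.W n y)).hasDerivWithinAt (s := Ici s)
      have h3 := h1.sub h2
      rw [sub_self] at h3
      exact h3
    have hc : ContinuousOn (fun r => X r (S.d n) - S.φ n r * S.W n y) (Icc α β) := by
      apply (hcont _).sub
      apply Continuous.continuousOn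
      have : Continuous (S.φ n) := by
        rw [continuous_iff_continuousAt]
        exact fun r => (h.der n r).continuousAt
      exact this.mul continuous_const
    have := constant_of_has_deriv_right_zero hc hder t ht
    have hz : S.φ n α = 0 := h.zero n
    rw [hy, hz] at this
    linarith
  ext i
  by_cases hi : i = S.d n
  · subst hi; rw [seg_apply_self, hd]
  · rw [seg_apply_ne hi, hne i hi t ht]

/-- Uniqueness of trajectories, for all times. -/
theorem traj_unique (h : S.Ok N u) {a : Fin 3 → ℝ} {X : ℝ → Fin 3 → ℝ} (h0 : X 0 = a)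
    (hX : ∀ t, 0 ≤ t → HasDerivWithinAt X (u t (X t)) (Ici 0) t) {t : ℝ} (ht : 0 ≤ t) :
    X t = traj S N a t := by
  have hN : (0 : ℝ) < N := by exact_mod_cast h.pos
  have hpos : ∀ n : ℕ, X ((n : ℝ) / N) = S.pos a n := by
    intro n
    induction n with
    | zero => simpa [Slots.pos] using h0
    | succ n ih =>
      have hmem : ((n : ℝ) + 1) / N ∈ Icc ((n : ℝ) / N) (((n : ℝ) + 1) / N) :=
        ⟨div_le_div_of_nonneg_right (by linarith) hN.le, le_rfl⟩
      have := slot_unique h hX n ih hmem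
      push_cast
      rw [this, h.one n]
      rfl
  obtain ⟨n, hn1, hn2⟩ := exists_slot h.pos ht
  rw [slot_unique h hX n (hpos n) ⟨hn1, hn2.le⟩, traj_eq h a n ⟨hn1, hn2.le⟩]

/-- The trajectory of `a` meets `O` if and only if some segment does. -/
theorem hit_iff (h : S.Ok N u) (a : Fin 3 → ℝ) (O : Set (Fin 3 → ℝ)) :
    (∃ t, 0 ≤ t ∧ traj S N a t ∈ O) ↔
      ∃ n : ℕ, ∃ s ∈ Icc (0 : ℝ) 1, S.seg n (S.pos a n) s ∈ O := by
  have hN : (0 : ℝ) < N := by exact_mod_cast h.pos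
  constructor
  · rintro ⟨t, ht, hO⟩
    obtain ⟨n, hn1, hn2⟩ := exists_slot h.pos ht
    refine ⟨n, S.φ n t, h.mem n t ⟨hn1, hn2.le⟩, ?_⟩
    rwa [← traj_eq h a n ⟨hn1, hn2.le⟩]
  · rintro ⟨n, s, hs, hO⟩
    have hle : (n : ℝ) / N ≤ ((n : ℝ) + 1) / N := div_le_div_of_nonneg_right (by linarith) hN.le
    have hc : ContinuousOn (S.φ n) (Icc ((n : ℝ) / N) (((n : ℝ) + 1) / N)) :=
      fun r _ => (h.der n r).continuousAt.continuousWithinAt
    have := intermediate_value_Icc hle hc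
    rw [h.zero n, h.one n] at this
    obtain ⟨t, ht, hts⟩ := this hs
    refine ⟨t, le_trans (by positivity) ht.1, ?_⟩
    rw [traj_eq h a n ht, hts]
    exact hO

end Slots

end Vale.Agent.P113.H165
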