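import Mathlib
import Vale.Agent.P113.Iface
import Vale.Agent.P113.H799.R
import Vale.Agent.P113.H165.Sol
import Vale.Agent.P113.H165.Traj

/-!
The time slots of the velocity field `vel`, and the trajectories of `vel`.
-/

open Set Function
open scoped ContDiff

namespace Vale.Agent.P113.H165

open Vale.Agent.P113

theorem slot_nice (m : ℕ) : R.Nice (slot m) where
  smooth := by
    unfold slot
    exact contDiff_const.mul (R.contDiff_rho.comp
      ((contDiff_const.mul contDiff_id).sub contDiff_const))
  supp := by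
    refine ⟨(m : ℝ) + 1, fun s hs => ?_⟩
    unfold slot
    rw [R.rho_eq_zero, mul_zero]
    have hm : (0 : ℝ) ≤ m := Nat.cast_nonneg m
    rcases abs_cases s with ⟨h1, _⟩ | ⟨h1, _⟩
    · rw [h1] at hs
      rw [le_abs]
      left
      linarith
    · rw [h1] at hs
      rw [le_abs]
      right
      linarith

theorem contDiff_slot (m : ℕ) : ContDiff ℝ ∞ (slot m) := (slot_nice m).smooth

theorem contDiff_pslot (m : ℕ) : ContDiff ℝ ∞ (pslot m) := R.contDiff_periodize (slot_nice m)

/-- the speed function of the slot `n` -/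
noncomputable def spd (n : ℤ) (t : ℝ) : ℝ := 32 * kappa⁻¹ * rho (32 * t - (2 * n + 1))

theorem slot_eq_spd (m : ℕ) (t : ℝ) : slot m t = spd m t := by
  simp [slot, spd]

theorem spd_zero {n k : ℤ} (hnk : n ≠ k) {t : ℝ} (h1 : (n : ℝ) ≤ 16 * t) (h2 : 16 * t ≤ n + 1) :
    spd k t = 0 := by
  unfold spd
  rw [R.rho_eq_zero, mul_zero]
  rcases lt_or_gt_of_ne hnk with h | h
  · have : (n : ℝ) + 1 ≤ k := by exact_mod_cast h
    rw [le_abs]; right; linarith
  · have : (k : ℝ) + 1 ≤ n := by exact_mod_cast h
    rw [le_abs]; left; linarith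

theorem slot_slot (n : ℤ) (m : ℕ) {t : ℝ} (h1 : (n : ℝ) ≤ 16 * t) (h2 : 16 * t ≤ n + 1) :
    slot m t = if n = m then spd n t else 0 := by
  rw [slot_eq_spd]
  split_ifs with h
  · rw [h]
  · exact spd_zero h h1 h2

theorem pslot_slot (n : ℤ) (m : ℕ) (hm : m < 16) {t : ℝ} (h1 : (n : ℝ) ≤ 16 * t)
    (h2 : 16 * t ≤ n + 1) : pslot m t = if n % 16 = m then spd n t else 0 := by
  unfold pslot periodize
  have hterm : ∀ k : ℤ, slot m (t + k) = spd (m - 16 * k) t := by
    intro k
    unfold slot spd
    push_cast
    congr 2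
    ring
  simp only [hterm]
  split_ifs with h
  · rw [tsum_eq_single (-(n / 16))]
    · congr 1
      omega
    · intro k hk
      apply spd_zero (n := n) _ h1 h2
      omega
  · rw [← tsum_zero (α := ℝ) (β := ℤ)]
    apply tsum_congr
    intro k
    apply spd_zero (n := n) _ h1 h2
    omega

theorem exists_int_slot (t : ℝ) : ∃ n : ℤ, (n : ℝ) ≤ 16 * t ∧ 16 * t ≤ n + 1 :=
  ⟨⌊16 * t⌋, Int.floor_le _, (Int.lt_floor_add_one _).le⟩

section vel

variable (V : Fin 8 → E → ℝ) (dir : Fin 8 → Fin 3) (x0 y0 : ℝ)

/-- the ten shears -/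
noncomputable def velShears : Shears (Fin 2 ⊕ Fin 8) where
  d := Sum.elim ![0, 1] dir
  θ := Sum.elim (fun l => slot l) (fun j => pslot (8 + j))
  V := Sum.elim (fun l _ => (![x0, y0] : Fin 2 → ℝ) l) V

theorem vel_eq : vel V dir x0 y0 = (velShears V dir x0 y0).u := by
  funext t x i
  simp only [vel, Shears.u, velShears, Fintype.sum_sum_type, Sum.elim_inl, Sum.elim_inr,
    Fin.sum_univ_two, Pi.add_apply, Finset.sum_apply, Pi.single_apply]
  simp [eq_comm]

theorem velShears_ok (hV : ∀ j, ContDiff ℝ ∞ (V j))
    (hp : ∀ j x i, V j (x + Pi.single i 1) = V j x)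
    (hi : ∀ j x s, V j (Function.update x (dir j) s) = V j x) :
    (velShears V dir x0 y0).Ok where
  smoothT := by
    rintro (l | j)
    · exact contDiff_slot _
    · exact contDiff_pslot _
  smoothV := by
    rintro (l | j)
    · exact contDiff_const
    · exact hV j
  indep := by
    rintro (l | j) x s
    · rfl
    · exact hi j x s
  per := by
    rintro (l | j) x i
    · rfl
    · exact hp j x i
  disj := by
    intro m m' t hmm
    obtain ⟨n, h1, h2⟩ := exists_int_slot t
    rcases m with l | j <;> rcases m' with l' | j'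
    · simp only [velShears, Sum.elim_inl]
      rw [slot_slot n _ h1 h2, slot_slot n _ h1 h2]
      have : l ≠ l' := fun h => hmm (by rw [h])
      split_ifs with ha hb
      · exfalso
        apply this
        ext
        omega
      all_goals simp
    · simp only [velShears, Sum.elim_inl, Sum.elim_inr]
      rw [slot_slot n _ h1 h2, pslot_slot n _ (by omega) h1 h2]
      split_ifs with ha hb
      · exfalso
        push_cast at hb
        omega
      all_goals simp
    · simp only [velShears, Sum.elim_inl, Sum.elim_inr]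
      rw [slot_slot n _ h1 h2, pslot_slot n _ (by omega) h1 h2]
      split_ifs with ha hb
      · exfalso
        push_cast at ha
        omega
      all_goals simp
    · simp only [velShears, Sum.elim_inr]
      rw [pslot_slot n _ (by omega) h1 h2, pslot_slot n _ (by omega) h1 h2]
      have : j ≠ j' := fun h => hmm (by rw [h])
      split_ifs with ha hb
      · exfalso
        apply this
        ext
        push_cast at ha hb
        omega
      all_goals simp

theorem slot_at_zero (m : ℕ) : slot m 0 = 0 := by
  rw [slot_eq_spd]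
  unfold spd
  rw [R.rho_eq_zero, mul_zero]
  rw [le_abs]
  right
  push_cast
  have : (0 : ℝ) ≤ m := Nat.cast_nonneg m
  linarith

theorem pslot_at_zero (m : ℕ) (hm : m < 16) : pslot m 0 = 0 := by
  rw [pslot_slot 0 m hm (by simp) (by simp)]
  split_ifs
  · unfold spd
    rw [R.rho_eq_zero, mul_zero]
    simp
  · rfl

/-- The fluid side: for smooth periodic profiles, if the force is
`Σ θ_m' V_m - ν θ_m Δ V_m`, then `vel` is a global smooth solution. -/
theorem vel_global (hV : ∀ j, ContDiff ℝ ∞ (V j))
    (hp : ∀ j x i, V j (x + Pi.single i 1) = V j x)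
    (hi : ∀ j x s, V j (Function.update x (dir j) s) = V j x) {ν : ℝ} {f : ℝ → E → E}
    (hf : ∀ t, 0 ≤ t → ∀ x i, f t x i =
      (if i = 0 then deriv (slot 0) t * x0 else if i = 1 then deriv (slot 1) t * y0 else 0) +
      ∑ j : Fin 8, if dir j = i then deriv (pslot (8 + j)) t * V j x -
        ν * pslot (8 + j) t * ∑ k, pd k (pd k (V j)) x else 0) :
    IsGlobalSmoothSolution ν f (vel V dir x0 y0) (fun _ _ => 0) := by
  rw [vel_eq]
  have hok := velShears_ok V dir x0 y0 hV hp hi
  refine Shears.global hok ?_ ?_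
  · rintro (l | j)
    · exact slot_at_zero _
    · exact pslot_at_zero _ (by omega)
  · intro t ht x i
    have hc : ∀ (c : ℝ) (k : Fin 3), pd k (fun _ : E => c) = fun _ => 0 := by
      intro c k
      funext y
      unfold pd
      exact deriv_const _ _
    have hc' : ∀ (c : ℝ), ∑ k, pd k (pd k (fun _ : E => c)) x = 0 := by
      intro c
      simp only [hc, Finset.sum_const_zero]
    have h1 : (velShears V dir x0 y0).f ν t x i =
        (∑ l : Fin 2, if (![0, 1] : Fin 2 → Fin 3) l = i then
          deriv (slot l) t * (![x0, y0] : Fin 2 → ℝ) l -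
            ν * (slot l t * ∑ k, pd k (pd k (fun _ : E => (![x0, y0] : Fin 2 → ℝ) l)) x) else 0) +
        ∑ j : Fin 8, if dir j = i then deriv (pslot (8 + j)) t * V j x -
          ν * (pslot (8 + j) t * ∑ k, pd k (pd k (V j)) x) else 0 := by
      unfold Shears.f
      rw [Fintype.sum_sum_type]
      rfl
    rw [hf t ht x i, h1, Fin.sum_univ_two]
    simp only [hc', mul_zero, sub_zero]
    congr 1
    · fin_cases i <;> simp
    · apply Finset.sum_congr rfl
      intro j _
      by_cases hj : dir j = i
      · rw [if_pos hj, if_pos hj]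
        ring
      · rw [if_neg hj, if_neg hj]

/-- slot data of `vel` -/
noncomputable def velSlots : Slots where
  d := progDir dir
  W := progV V x0 y0
  φ := slotInt
  ψ := slot

theorem slotInt_hasDerivAt (m : ℕ) (t : ℝ) : HasDerivAt (slotInt m) (slot m t) t := by
  unfold slotInt slot
  have h1 : HasDerivAt (fun t : ℝ => 32 * t - (2 * (m : ℝ) + 1)) 32 t := by
    simpa using ((hasDerivAt_id t).const_mul (32 : ℝ)).sub_const (2 * (m : ℝ) + 1)
  have h2 := (R.hasDerivAt_sigma (32 * t - (2 * (m : ℝ) + 1))).comp t h1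
  have h3 := h2.const_mul kappa⁻¹
  refine h3.congr_deriv ?_
  ring

theorem slotInt_left {m : ℕ} {t : ℝ} (h : 16 * t ≤ m) : slotInt m t = 0 := by
  unfold slotInt
  rw [R.sigma_eq_zero (by linarith), mul_zero]

theorem slotInt_right {m : ℕ} {t : ℝ} (h : (m : ℝ) + 1 ≤ 16 * t) : slotInt m t = 1 := by
  unfold slotInt
  rw [R.sigma_eq_kappa (by linarith)]
  exact inv_mul_cancel₀ R.kappa_pos.ne'

theorem slotInt_mem (m : ℕ) (t : ℝ) : slotInt m t ∈ Icc (0 : ℝ) 1 := by
  unfold slotInt
  have hk := R.kappa_pos
  constructor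
  · exact mul_nonneg (inv_nonneg.2 hk.le) (R.sigma_nonneg _)
  · rw [inv_mul_le_iff₀ hk, mul_one]
    exact R.sigma_le_kappa _

theorem velSlots_ok (hi : ∀ j x s, V j (Function.update x (dir j) s) = V j x) :
    (velSlots V dir x0 y0).Ok 16 (vel V dir x0 y0) where
  pos := by norm_num
  indep := by
    intro n x s
    simp only [velSlots, progV, progDir]
    split_ifs
    · rfl
    · rfl
    · exact hi _ _ _
    · rfl
  der := slotInt_hasDerivAt
  zero := by
    intro n
    apply slotInt_left
    push_cast
    linarith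
  one := by
    intro n
    apply slotInt_right
    push_cast
    linarith
  mem := fun n t _ => slotInt_mem n t
  eq := by
    intro n t ht x
    have h1 : ((n : ℤ) : ℝ) ≤ 16 * t := by
      have := ht.1
      push_cast at this ⊢
      linarith
    have h2 : 16 * t ≤ ((n : ℤ) : ℝ) + 1 := by
      have := ht.2
      push_cast at this ⊢
      linarith
    have hs0 := slot_slot n 0 h1 h2
    have hs1 := slot_slot n 1 h1 h2
    have hsp : slot n t = spd n t := slot_eq_spd n t
    simp only [velSlots, vel, hs0, hs1, hsp]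
    have hps : ∀ j : Fin 8, pslot (8 + j) t = if n % 16 = 8 + j then spd n t else 0 := by
      intro j
      rw [pslot_slot n (8 + j) (by omega) h1 h2]
      congr 1
      simp only [eq_iff_iff]
      push_cast
      omega
    simp only [hps]
    have hz : n % 16 < 8 → (∑ j : Fin 8, Pi.single (dir j)
        ((if n % 16 = 8 + (j : ℕ) then spd n t else 0) * V j x) : E) = 0 := by
      intro hlt
      apply Finset.sum_eq_zero
      intro j _
      rw [if_neg (by omega), zero_mul, Pi.single_zero]
    by_cases hn0 : n = 0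
    · rw [hz (by omega)]
      subst hn0
      simp [progDir, progV]
    by_cases hn1 : n = 1
    · rw [hz (by omega)]
      subst hn1
      simp [progDir, progV]
    have e0 : ¬ ((n : ℤ) = ((0 : ℕ) : ℤ)) := by omega
    have e1 : ¬ ((n : ℤ) = ((1 : ℕ) : ℤ)) := by omega
    simp only [e0, e1, if_false, zero_mul, Pi.single_zero, zero_add]
    by_cases h8 : 8 ≤ n % 16
    · simp only [progDir, progV, hn0, hn1, if_false, h8, dif_pos]
      rw [Finset.sum_eq_single (⟨n % 16 - 8, by omega⟩ : Fin 8)]
      · rw [if_pos]
        simp only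
        omega
      · intro j _ hj
        rw [if_neg, zero_mul, Pi.single_zero]
        intro hc
        apply hj
        ext
        simp only
        omega
      · intro hc
        exact absurd (Finset.mem_univ _) hc
    · simp only [progDir, progV, hn0, hn1, if_false, h8, dif_neg, not_false_eq_true, mul_zero,
        Pi.single_zero]
      apply Finset.sum_eq_zero
      intro j _
      rw [if_neg (by omega), zero_mul, Pi.single_zero]

theorem pos_eq_orbit (n : ℕ) : (velSlots V dir x0 y0).pos 0 n = orbit V dir x0 y0 n := by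
  induction n with
  | zero => rfl
  | succ n ih =>
    have h1 : (velSlots V dir x0 y0).pos 0 (n + 1) =
        (velSlots V dir x0 y0).seg n ((velSlots V dir x0 y0).pos 0 n) 1 := rfl
    rw [h1, ih]
    simp only [orbit, Slots.seg, velSlots, one_mul]
    ext i
    by_cases hi : i = progDir dir n
    · subst hi; simp
    · simp [hi]

end vel

/-- Part T: trajectories. -/
theorem partT' (V : Fin 8 → E → ℝ) (dir : Fin 8 → Fin 3)
    (hi : ∀ j x s, V j (Function.update x (dir j) s) = V j x) (x0 y0 : ℝ) :
    (∃ X : ℝ → E, IsTrajectory (vel V dir x0 y0) 0 X) ∧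
      ∀ X : ℝ → E, IsTrajectory (vel V dir x0 y0) 0 X →
        (∀ n : ℕ, X (n / 16) = orbit V dir x0 y0 n) ∧
        ∀ (n : ℕ) (t : ℝ), (n : ℝ) / 16 ≤ t → t ≤ (n + 1) / 16 →
          X t ∈ segment ℝ (orbit V dir x0 y0 n) (orbit V dir x0 y0 (n + 1)) := by
  have hok := velSlots_ok V dir x0 y0 hi
  constructor
  · exact ⟨Slots.traj (velSlots V dir x0 y0) 16 0, Slots.traj_zero hok 0,
      fun t ht => Slots.traj_hasDeriv hok 0 ht⟩
  · intro X hX
    have hu : ∀ t, 0 ≤ t → X t = Slots.traj (velSlots V dir x0 y0) 16 0 t := fun t ht =>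
      Slots.traj_unique hok hX.start hX.ode ht
    have hseg : ∀ (n : ℕ) (t : ℝ), (n : ℝ) / 16 ≤ t → t ≤ (n + 1) / 16 →
        X t = (velSlots V dir x0 y0).seg n (orbit V dir x0 y0 n) (slotInt n t) := by
      intro n t h1 h2
      rw [hu t (le_trans (by positivity) h1),
        Slots.traj_eq hok 0 n ⟨by exact_mod_cast h1, by exact_mod_cast h2⟩, pos_eq_orbit]
      rfl
    have hform : ∀ (n : ℕ) (s : ℝ),
        (velSlots V dir x0 y0).seg n (orbit V dir x0 y0 n) s =
          orbit V dir x0 y0 n + s • (orbit V dir x0 y0 (n + 1) - orbit V dir x0 y0 n) := by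
      intro n s
      have h2 : orbit V dir x0 y0 (n + 1) - orbit V dir x0 y0 n =
          Pi.single (progDir dir n) (progV V x0 y0 n (orbit V dir x0 y0 n)) := by
        simp only [orbit]
        abel
      rw [h2]
      ext i
      by_cases hi : i = progDir dir n
      · subst hi; simp [Slots.seg, velSlots]
      · simp [Slots.seg, velSlots, hi]
    constructor
    · intro n
      rw [hseg n _ le_rfl (div_le_div_of_nonneg_right (by linarith) (by norm_num)), hform,
        slotInt_left (by linarith), zero_smul, add_zero]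
    · intro n t h1 h2
      rw [hseg n t h1 h2, hform, segment_eq_image']
      exact ⟨slotInt n t, slotInt_mem n t, rfl⟩

/-- Part T. -/
theorem partT : PartT := fun V dir _ hi x0 y0 => partT' V dir hi x0 y0

end Vale.Agent.P113.H165
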