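import Mathlib
import Vale.Agent.P113.H165.Time

/-!
The loading terms of the force, and Part DS from the symbolic calculus.
-/

open Set Function
open scoped ContDiff

namespace Vale.Agent.P113.H165

open Vale.Agent.P113

theorem deriv_slot (m : ℕ) (t : ℝ) :
    deriv (slot m) t = 1024 * kappa⁻¹ * iteratedDeriv 1 rho (32 * t - (2 * m + 1)) := by
  have h1 : HasDerivAt (fun t : ℝ => 32 * t - (2 * (m : ℝ) + 1)) 32 t := by
    simpa using ((hasDerivAt_id t).const_mul (32 : ℝ)).sub_const (2 * (m : ℝ) + 1)
  have h0 : HasDerivAt rho (iteratedDeriv 1 rho (32 * t - (2 * m + 1)))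
      (32 * t - (2 * (m : ℝ) + 1)) := by
    have := R.hasDerivAt_drho 0 (32 * t - (2 * (m : ℝ) + 1))
    rw [R.drho_zero] at this
    exact this
  have h2 := h0.comp t h1
  have h3 := h2.const_mul (32 * kappa⁻¹)
  have h4 : HasDerivAt (slot m)
      (32 * kappa⁻¹ * (iteratedDeriv 1 rho (32 * t - (2 * m + 1)) * 32)) t := h3
  rw [h4.deriv]
  ring

theorem termVal_loadTerm (ν : ℝ) (m : ℕ) (q : QCode) (t : ℝ) (x : E) :
    termVal ν (loadTerm m q) t x = deriv (slot m) t * qval q := by
  rw [deriv_slot]
  simp only [termVal, loadTerm, bump, qval, pow_zero, List.map_nil, List.prod_nil, List.map_cons,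
    List.prod_cons, mul_one, Finset.prod_const_one, zpow_neg, zpow_one]
  push_cast
  simp only [div_one, one_mul]
  ring

theorem sum_map_flatMap {α β : Type} (l : List α) (f : α → List β) (g : β → ℝ) :
    ((l.flatMap f).map g).sum = (l.map fun a => ((f a).map g).sum).sum := by
  induction l with
  | nil => simp
  | cons a l ih => simp [ih]

/-- Part DS from the symbolic calculus: it is enough that every admissible `V` is smooth and
periodic, and that `Θ_m' V - ν Θ_m Δ V` is given by a list of valid periodic terms. -/
theorem partDS_of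
    (ha : ∀ V : E → ℝ, Adm V → ContDiff ℝ ∞ V ∧ ∀ x i, V (x + Pi.single i 1) = V x)
    (hb : ∀ V : E → ℝ, Adm V → ∀ m : ℕ, ∃ L : List TermCode,
      (∀ τ ∈ L, TermCode.Valid τ ∧ isPeriodic τ = true) ∧
      ∀ ν t x, (L.map fun τ => termVal ν τ t x).sum =
        deriv (pslot m) t * V x - ν * pslot m t * ∑ k, pd k (pd k V) x) : PartDS := by
  intro V dir hV hi
  choose L hL hLv using fun j : Fin 8 => hb (V j) (hV j) (8 + j)
  refine ⟨fun i => (List.finRange 8).flatMap fun j => if dir j = i then L j else [], ?_, ?_⟩
  · intro i τ hτ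
    rw [List.mem_flatMap] at hτ
    obtain ⟨j, _, hj⟩ := hτ
    split_ifs at hj
    · exact hL j τ hj
    · simp at hj
  · intro x0 y0 _ _ ν _
    refine vel_global V dir _ _ (fun j => (ha _ (hV j)).1) (fun j x i => (ha _ (hV j)).2 x i) hi ?_
    intro t _ x i
    have hP : (((List.finRange 8).flatMap fun j => if dir j = i then L j else []).map
        fun τ => termVal ν τ t x).sum =
        ∑ j : Fin 8, if dir j = i then deriv (pslot (8 + j)) t * V j x -
          ν * pslot (8 + j) t * ∑ k, pd k (pd k (V j)) x else 0 := by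
      rw [sum_map_flatMap, ← List.sum_ofFn, List.ofFn_eq_map]
      congr 1
      apply List.map_congr_left
      intro j _
      split_ifs
      · exact hLv j ν t x
      · simp
    simp only [forceVal, fullCode, List.map_append, List.sum_append]
    rw [hP]
    congr 1
    split_ifs
    · simp [termVal_loadTerm]
    · simp [termVal_loadTerm]
    · simp

end Vale.Agent.P113.H165
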